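import Vale.Agent.P147.Velocity.Four.Pot
import Vale.Agent.P147.Velocity.Occupy
import Vale.Agent.P147.Velocity.StayUp
import Vale.Agent.P147.Velocity.Janson

/-!
P147: words which survive a killed walk in a slab and end at the top weigh at most the chance to
reach the top alive; reaching every level is staying up.
-/

open MeasureTheory Filter
open scoped ENNReal Topology

namespace Vale.Agent.P147.Velocity.Four

variable {d : ℕ}

/-- The sites at and above level `N`. -/
def top (lev : Site d →+ ℤ) (N : ℕ) : Set (Site d) := {x | (N : ℤ) ≤ lev x}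

/-- The surviving share of a word. -/
noncomputable def keep (k : Site d → ℝ) (z : Site d) (γ : List (Step d)) : ℝ≥0∞ :=
  ((visits z γ).map fun x => ENNReal.ofReal (k x)).prod

/-- Words ending in `T` weigh, alive, at most the chance to reach `T`. -/
lemma sum_keep_le (k : Site d → ℝ) (ω : Env d) (T : Set (Site d)) (z : Site d)
    (W : Finset (List (Step d))) (hW : ∀ γ ∈ W, z + disp γ ∈ T) :
    ∑ γ ∈ W, keep k z γ * qp ω z γ ≤ succ k ω T z := by
  classical
  have key : ∀ m (z : Site d) (W : Finset (List (Step d))), (∀ γ ∈ W, γ.length ≤ m) →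
      (∀ γ ∈ W, z + disp γ ∈ T) → ∑ γ ∈ W, keep k z γ * qp ω z γ ≤ potN k ω (ind T) m z := by
    intro m
    induction m with
    | zero =>
      intro z W hlen hW
      have hsub : W ⊆ {[]} := fun γ hγ =>
        Finset.mem_singleton.2 (List.length_eq_zero_iff.1 (Nat.le_zero.1 (hlen γ hγ)))
      rcases Finset.subset_singleton_iff.1 hsub with rfl | rfl
      · simp
      · have h := hW [] (Finset.mem_singleton_self _)
        simp only [disp_nil, add_zero] at h
        simp [keep, visits, qp, potN, ind, h]
    | succ m ih =>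
      intro z W hlen hW
      rw [potN, ← Finset.sum_filter_add_sum_filter_not W (fun γ => γ = [])]
      refine add_le_add ?_ ?_
      · rcases (W.filter fun γ => γ = []).eq_empty_or_nonempty with he | ⟨γ0, hγ0⟩
        · rw [he]; simp
        · obtain ⟨hmem, rfl⟩ := Finset.mem_filter.1 hγ0
          have h' := hW _ hmem
          simp only [disp_nil, add_zero] at h'
          rw [show W.filter (fun γ => γ = []) = {[]} from Finset.eq_singleton_iff_unique_mem.2
            ⟨hγ0, fun γ hγ => (Finset.mem_filter.1 hγ).2⟩]
          simp [keep, visits, qp, ind, h']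
      · set sub : Step d → Finset (List (Step d)) := fun e =>
          W.preimage (fun γ => e :: γ) ((List.cons_injective).injOn)
        have hsplit : ∑ γ ∈ W.filter (fun γ => ¬ γ = []), keep k z γ * qp ω z γ =
            ∑ e, ∑ γ ∈ sub e, keep k z (e :: γ) * qp ω z (e :: γ) := by
          rw [← Finset.sum_sigma Finset.univ sub
            (fun p => keep k z (p.1 :: p.2) * qp ω z (p.1 :: p.2))]
          refine Finset.sum_bij' (fun γ hγ => (⟨γ.head (Finset.mem_filter.1 hγ).2, γ.tail⟩ :
              (_ : Step d) × List (Step d))) (fun p _ => p.1 :: p.2) ?_ ?_ ?_ ?_ ?_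
          · intro γ hγ
            obtain ⟨h1, h2⟩ := Finset.mem_filter.1 hγ
            simp only [Finset.mem_sigma, Finset.mem_univ, true_and, sub, Finset.mem_preimage]
            rwa [List.cons_head_tail]
          · intro p hp
            simp only [Finset.mem_sigma, Finset.mem_univ, true_and, sub, Finset.mem_preimage] at hp
            exact Finset.mem_filter.2 ⟨hp, List.cons_ne_nil _ _⟩
          · intro γ hγ; exact List.cons_head_tail _
          · intro p _; rfl
          · intro γ hγ; simp [List.cons_head_tail]
        rw [hsplit, act, Finset.mul_sum]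
        refine Finset.sum_le_sum fun e _ => ?_
        have hk : ∀ γ, keep k z (e :: γ) * qp ω z (e :: γ) = ENNReal.ofReal (k z) *
            (ENNReal.ofReal (ω z e) * (keep k (z + move e) γ * qp ω (z + move e) γ)) := fun γ => by
          simp only [keep, visits, List.map_cons, List.prod_cons, qp]; ring
        simp only [hk, ← Finset.mul_sum]
        refine mul_le_mul' le_rfl (mul_le_mul' le_rfl (ih _ _ (fun γ hγ => ?_) fun γ hγ => ?_))
        · have := hlen _ (Finset.mem_preimage.1 hγ)
          simpa using this
        · have := hW _ (Finset.mem_preimage.1 hγ)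
          simpa [add_assoc] using this
  obtain ⟨m, hm⟩ : ∃ m, ∀ γ ∈ W, γ.length ≤ m := ⟨W.sup List.length, fun γ hγ => Finset.le_sup hγ⟩
  exact (key m z W hm hW).trans (potN_le_pot m z)

/-- Paths which get to level `N` without going below level zero before. -/
def reach (lev : Site d →+ ℤ) (N : ℕ) : Set (Path d) :=
  {X | ∃ t, (N : ℤ) ≤ lev (X t) ∧ ∀ s < t, 0 ≤ lev (X s)}

lemma measurableSet_reach (lev : Site d →+ ℤ) (N : ℕ) : MeasurableSet (reach lev N) := by
  have h : reach lev N = ⋃ t : ℕ, (fun X : Path d => X t) ⁻¹' {x | (N : ℤ) ≤ lev x} ∩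
      ⋂ s : ℕ, ⋂ (_ : s < t), (fun X : Path d => X s) ⁻¹' {x | 0 ≤ lev x} := by
    ext X; simp [reach]
  rw [h]
  exact MeasurableSet.iUnion fun t => ((measurable_pi_apply t) MeasurableSet.of_discrete).inter
    (MeasurableSet.iInter fun s => MeasurableSet.iInter fun _ =>
      (measurable_pi_apply s) MeasurableSet.of_discrete)

variable [NeZero d]

/-- Reaching every level alive means staying up, seen from level zero. -/
lemma reach_lim {ω : Env d} (a : Fin d → ℤ) (z : Site d) (hz : levOf a z = 0) {ε : ℝ≥0∞}
    (h : law ω z (stayUp a) < ε) : ∀ᶠ N in atTop, law ω z (reach (levOf a) N) < ε := by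
  have h5 : Tendsto (fun N => law ω z (reach (levOf a) N)) atTop
      (𝓝 (law ω z (⋂ N, reach (levOf a) N))) :=
    tendsto_measure_iInter_atTop (fun N => (measurableSet_reach _ N).nullMeasurableSet)
      (fun N N' hN X ⟨t, ht, hs⟩ => ⟨t, le_trans (by exact_mod_cast hN) ht, hs⟩)
      ⟨0, measure_ne_top _ _⟩
  refine h5.eventually_lt_const (lt_of_le_of_lt ?_ h)
  refine (measure_mono (t := stayUp a ∪ {X | X 0 = z}ᶜ) fun X hX => ?_).trans
    ((measure_union_le _ _).trans (by rw [law_start ω z, add_zero]))
  by_cases h0 : X 0 = z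
  swap
  · exact Or.inr h0
  left
  intro T
  rw [map_sub, h0, hz, sub_zero]
  set B := (Finset.range (T + 1)).sup fun s => (levOf a (X s)).toNat
  obtain ⟨t, ht, hs⟩ := Set.mem_iInter.1 hX (B + 1)
  refine hs T (lt_of_not_ge fun hle => ?_)
  have := Finset.le_sup (f := fun s => (levOf a (X s)).toNat) (Finset.mem_range.2 (show t < T + 1 by omega))
  push_cast at ht
  omega

end Vale.Agent.P147.Velocity.Four
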