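import Vale.Agent.P147.Velocity.Four.Pot

/-!
P147: changing one row moves the chance to reach the top by at most the expected number of visits
times the gradient of the old chances at that row.
-/

open MeasureTheory Filter
open scoped ENNReal

namespace Vale.Agent.P147.Velocity.Four

variable {d : ℕ} {k : Site d → ℝ} {ω : Env d} {T : Set (Site d)}

lemma green_ne_top (hω : Good ω) (hk0 : ∀ x, 0 ≤ k x) (hk1 : ∀ x, k x ≤ 1) (z : Site d)
    {x : Site d} (hx : k x < 1) : green k ω z x ≠ ⊤ := by
  refine ne_top_of_le_ne_top ?_ (green_le_inv hω hk0 hk1 z x)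
  exact ENNReal.inv_ne_top.mpr (ne_of_gt (ENNReal.ofReal_pos.mpr (by linarith)))

/-- The exact bound for one changed row. -/
lemma succ_update_le (hω : Good ω) (hk0 : ∀ x, 0 ≤ k x) (hk1 : ∀ x, k x < 1)
    (hT : ∀ x ∈ T, k x ≤ 0) {κ : ℝ} (hκ : 0 < κ) (x : Site d) {q : Step d → ℝ} (hq : GoodRow q)
    (hqκ : ∀ e, κ ≤ q e) (z : Site d) :
    succ k (Function.update ω x q) T z ≤ succ k ω T z + ENNReal.ofReal
      (max 0 (∑ e, (q e - ω x e) * (succ k ω T (x + move e)).toReal) / κ) * green k ω z x := by
  have hk1' : ∀ y, k y ≤ 1 := fun y => (hk1 y).le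
  set D := ∑ e, (q e - ω x e) * (succ k ω T (x + move e)).toReal with hD
  set a := max 0 D / κ with ha
  have ha0 : 0 ≤ a := by positivity
  refine pot_le (h := fun y => succ k ω T y + ENNReal.ofReal a * green k ω y x) (fun y => ?_) z
  by_cases hy : y = x
  · subst hy
    rcases eq_or_lt_of_le (hk0 y) with hky | hky
    · rw [act_of_nonpos _ hky.ge, add_zero]
      exact (le_pot y).trans le_self_add
    have hyT : y ∉ T := fun h => absurd (hT y h) (not_le.mpr hky)
    have hG : ∀ w, green k ω w y ≠ ⊤ := fun w => green_ne_top hω hk0 hk1' w (hk1 y)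
    have hS : ∀ w, succ k ω T w ≠ ⊤ := fun w => succ_ne_top hω hk1' hT w
    have hne : ∀ w, succ k ω T w + ENNReal.ofReal a * green k ω w y ≠ ⊤ := fun w =>
      ENNReal.add_ne_top.mpr ⟨hS w, ENNReal.mul_ne_top ENNReal.ofReal_ne_top (hG w)⟩
    rw [ind, if_neg hyT, zero_add]
    set ω' := Function.update ω y q
    have hω' : Good ω' := fun w => by
      by_cases hw : w = y
      · subst hw; simpa [ω'] using hq
      · simpa [ω', hw] using hω w
    have hfin : act k ω' (fun w => succ k ω T w + ENNReal.ofReal a * green k ω w y) y ≠ ⊤ :=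
      ENNReal.mul_ne_top ENNReal.ofReal_ne_top (ENNReal.sum_ne_top.mpr fun e _ =>
        ENNReal.mul_ne_top ENNReal.ofReal_ne_top (hne _))
    rw [← ENNReal.toReal_le_toReal hfin (hne y), toReal_act hω' hk0 y fun e => hne _]
    simp only [ω', Function.update_self, ENNReal.toReal_add (hS _) (ENNReal.mul_ne_top
      ENNReal.ofReal_ne_top (hG _)), ENNReal.toReal_mul, ENNReal.toReal_ofReal ha0]
    set f : Step d → ℝ := fun e => (succ k ω T (y + move e)).toReal with hf
    set φ : Step d → ℝ := fun e => (green k ω (y + move e) y).toReal with hφ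
    set φx := (green k ω y y).toReal with hφx
    have e1 : (succ k ω T y).toReal = k y * ∑ e, ω y e * f e := by
      rw [show succ k ω T y = ind T y + act k ω (succ k ω T) y from pot_eq y, ind, if_neg hyT,
        zero_add, toReal_act hω hk0 y fun e => hS _]
    have e2 : φx = 1 + k y * ∑ e, ω y e * φ e := by
      have hA : act k ω (fun w => green k ω w y) y ≠ ⊤ := ENNReal.mul_ne_top ENNReal.ofReal_ne_top
        (ENNReal.sum_ne_top.mpr fun e _ => ENNReal.mul_ne_top ENNReal.ofReal_ne_top (hG _))
      rw [hφx, show green k ω y y = dot y y + act k ω (fun w => green k ω w y) y from pot_eq y, dot,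
        if_pos rfl, ENNReal.toReal_add ENNReal.one_ne_top hA,
        ENNReal.toReal_one, toReal_act (h := fun w => green k ω w y) hω hk0 y fun e => hG _]
    have h1 : ∀ e, φ e ≤ φx := fun e =>
      ENNReal.toReal_mono (hG y) (green_le_self hω hk1' _ y)
    have hκ1 : κ ≤ 1 := by
      obtain ⟨e, -⟩ : ∃ e : Step d, e ∈ (Finset.univ : Finset (Step d)) := by
        refine Finset.Nonempty.exists_mem (Finset.nonempty_iff_ne_empty.mpr fun h => ?_)
        have := hq.2
        rw [h, Finset.sum_empty] at this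
        exact zero_ne_one this
      exact (hqκ e).trans (hq.2 ▸ Finset.single_le_sum (fun i _ => (hq.1 i).le) (Finset.mem_univ e))
    have h2 : κ * ∑ e, ω y e * (φx - φ e) ≤ ∑ e, q e * (φx - φ e) := by
      rw [Finset.mul_sum]
      refine Finset.sum_le_sum fun e _ => ?_
      rw [← mul_assoc]
      refine mul_le_mul_of_nonneg_right ?_ (sub_nonneg.mpr (h1 e))
      have : ω y e ≤ 1 := (hω y).2 ▸ Finset.single_le_sum (fun i _ => ((hω y).1 i).le)
        (Finset.mem_univ e)
      nlinarith [hqκ e, (hω y).1 e]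
    simp only [mul_sub, Finset.sum_sub_distrib, ← Finset.sum_mul, (hω y).2, hq.2, one_mul] at h2
    have hkey : κ ≤ φx - k y * ∑ e, q e * φ e := by
      have h3 : 0 ≤ φx := ENNReal.toReal_nonneg
      nlinarith [mul_le_mul_of_nonneg_left h2 hky.le,
        mul_nonneg (sub_nonneg.mpr (hk1' y)) h3,
        mul_nonneg (sub_nonneg.mpr hκ1) (mul_nonneg (sub_nonneg.mpr (hk1' y)) h3)]
    have hDa : D ≤ a * κ := by rw [ha, div_mul_cancel₀ _ hκ.ne']; exact le_max_right _ _
    have hDs : D = ∑ e, q e * f e - ∑ e, ω y e * f e := by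
      rw [hD, ← Finset.sum_sub_distrib]
      exact Finset.sum_congr rfl fun e _ => by simp only [f]; ring
    rw [e1]
    have hsplit : ∑ e, q e * (f e + a * φ e) = ∑ e, q e * f e + a * ∑ e, q e * φ e := by
      rw [Finset.mul_sum, ← Finset.sum_add_distrib]
      exact Finset.sum_congr rfl fun e _ => by ring
    rw [show (∑ e, q e * ((succ k ω T (y + move e)).toReal + a * (green k ω (y + move e) y).toReal))
      = ∑ e, q e * (f e + a * φ e) from rfl, hsplit]
    have hkD : k y * D ≤ a * κ := (mul_le_mul_of_nonneg_left hDa hky.le).trans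
      (mul_le_of_le_one_left (mul_nonneg ha0 hκ.le) (hk1' y))
    have h4 := mul_le_mul_of_nonneg_left hkey ha0
    rw [hDs] at hkD
    nlinarith
  · have e : act k (Function.update ω x q) (fun w => succ k ω T w + ENNReal.ofReal a * green k ω w x) y
        = act k ω (succ k ω T) y + ENNReal.ofReal a * act k ω (fun w => green k ω w x) y := by
      rw [show act k (Function.update ω x q) = fun h w => ENNReal.ofReal (k w) *
        ∑ e, ENNReal.ofReal (Function.update ω x q w e) * h (w + move e) from rfl]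
      simp only [Function.update_of_ne hy]
      rw [← act_const_mul, ← act_add]
      rfl
    rw [e]
    conv_rhs => rw [show succ k ω T y = ind T y + act k ω (succ k ω T) y from pot_eq y,
      show green k ω y x = dot x y + act k ω (fun w => green k ω w x) y from pot_eq y, dot, if_neg hy,
      zero_add]
    rw [add_assoc]

/-- The change is controlled by the spread at the row. -/
lemma gradient_sq_le (hω : Good ω) {κ : ℝ} (hκ : 0 < κ) {x : Site d} (hωκ : ∀ e, κ ≤ ω x e)
    {q : Step d → ℝ} (hq : GoodRow q) :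
    (∑ e, (q e - ω x e) * (succ k ω T (x + move e)).toReal) ^ 2 ≤
      (2 * d : ℝ) / κ * spreadAt k ω T x := by
  set f : Step d → ℝ := fun e => (succ k ω T (x + move e)).toReal
  set m := mean k ω T x
  have e : ∑ e, (q e - ω x e) * f e = ∑ e, (q e - ω x e) * (f e - m) := by
    simp only [mul_sub, Finset.sum_sub_distrib, ← Finset.sum_mul]
    rw [hq.2, (hω x).2, sub_self, zero_mul, sub_zero]
  rw [e]
  refine (Finset.sum_mul_sq_le_sq_mul_sq _ _ _).trans ?_
  have h1 : ∑ e, (q e - ω x e) ^ 2 ≤ 2 * d := by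
    refine (Finset.sum_le_card_nsmul _ _ 1 fun e _ => ?_).trans (le_of_eq (by simp; ring))
    have a1 : q e ≤ 1 := hq.2 ▸ Finset.single_le_sum (fun i _ => (hq.1 i).le) (Finset.mem_univ e)
    have a2 : ω x e ≤ 1 := (hω x).2 ▸ Finset.single_le_sum (fun i _ => ((hω x).1 i).le)
      (Finset.mem_univ e)
    nlinarith [hq.1 e, (hω x).1 e]
  have h2 : ∑ e, (f e - m) ^ 2 ≤ spreadAt k ω T x / κ := by
    rw [le_div_iff₀ hκ, Finset.sum_mul]
    refine Finset.sum_le_sum fun e _ => ?_
    rw [mul_comm]
    exact mul_le_mul_of_nonneg_right (hωκ e) (sq_nonneg _)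
  calc (∑ e, (q e - ω x e) ^ 2) * ∑ e, (f e - m) ^ 2
      ≤ (2 * d : ℝ) * (spreadAt k ω T x / κ) :=
        mul_le_mul h1 h2 (Finset.sum_nonneg fun e _ => sq_nonneg _) (by positivity)
    _ = _ := by ring

end Vale.Agent.P147.Velocity.Four
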