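import Vale.Agent.P147.Anisotropic

/-!
P147: potentials of a killed walk as least super-solutions, the chance of hitting a set, the
occupation bound by the killing, the quadratic variation, and the exact change of one row.
-/

open MeasureTheory Filter
open scoped ENNReal

namespace Vale.Agent.P147.Velocity.Four

variable {d : ℕ}

/-- One step of the walk which survives at `x` with chance `k x`. -/
noncomputable def act (k : Site d → ℝ) (ω : Env d) (h : Site d → ℝ≥0∞) (x : Site d) : ℝ≥0∞ :=
  ENNReal.ofReal (k x) * ∑ e, ENNReal.ofReal (ω x e) * h (x + move e)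

/-- The potential of `s` after at most `n` steps. -/
noncomputable def potN (k : Site d → ℝ) (ω : Env d) (s : Site d → ℝ≥0∞) : ℕ → Site d → ℝ≥0∞
  | 0 => s
  | n + 1 => fun x => s x + act k ω (potN k ω s n) x

/-- The potential of `s`: the least super-solution of `u = s + act k ω u`. -/
noncomputable def pot (k : Site d → ℝ) (ω : Env d) (s : Site d → ℝ≥0∞) (x : Site d) : ℝ≥0∞ :=
  ⨆ n, potN k ω s n x

variable {k : Site d → ℝ} {ω : Env d} {s : Site d → ℝ≥0∞}

lemma act_mono {h h' : Site d → ℝ≥0∞} (hh : ∀ x, h x ≤ h' x) (x : Site d) :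
    act k ω h x ≤ act k ω h' x :=
  mul_le_mul' le_rfl (Finset.sum_le_sum fun e _ => mul_le_mul' le_rfl (hh _))

lemma act_of_nonpos (h : Site d → ℝ≥0∞) {x : Site d} (hx : k x ≤ 0) : act k ω h x = 0 := by
  simp [act, ENNReal.ofReal_of_nonpos hx]

lemma act_add (h h' : Site d → ℝ≥0∞) (x : Site d) :
    act k ω (fun y => h y + h' y) x = act k ω h x + act k ω h' x := by
  simp [act, mul_add, Finset.sum_add_distrib]

lemma act_const_mul (c : ℝ≥0∞) (h : Site d → ℝ≥0∞) (x : Site d) :
    act k ω (fun y => c * h y) x = c * act k ω h x := by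
  simp only [act, mul_left_comm c, Finset.mul_sum]

lemma potN_le_succ (n : ℕ) : ∀ x, potN k ω s n x ≤ potN k ω s (n + 1) x := by
  induction n with
  | zero => intro x; exact le_self_add
  | succ n ih => intro x; exact add_le_add le_rfl (act_mono ih x)

lemma monotone_potN (x : Site d) : Monotone fun n => potN k ω s n x :=
  monotone_nat_of_le_succ fun n => potN_le_succ n x

lemma potN_le_pot (n : ℕ) (x : Site d) : potN k ω s n x ≤ pot k ω s x :=
  le_iSup (fun n => potN k ω s n x) n

lemma le_pot (x : Site d) : s x ≤ pot k ω s x := potN_le_pot 0 x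

/-- The least super-solution property. -/
lemma pot_le {h : Site d → ℝ≥0∞} (hh : ∀ x, s x + act k ω h x ≤ h x) (x : Site d) :
    pot k ω s x ≤ h x := by
  refine iSup_le fun n => ?_
  suffices H : ∀ n y, potN k ω s n y ≤ h y from H n x
  intro n
  induction n with
  | zero => intro y; exact le_self_add.trans (hh y)
  | succ n ih => intro y; exact (add_le_add le_rfl (act_mono ih y)).trans (hh y)

/-- The potential solves the equation. -/
lemma pot_eq (x : Site d) : pot k ω s x = s x + act k ω (pot k ω s) x := by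
  refine le_antisymm ?_ ?_
  · refine pot_le (h := fun y => s y + act k ω (pot k ω s) y) (fun y => ?_) x
    refine add_le_add le_rfl (act_mono (fun z => ?_) y)
    simp only [pot, act]
    rw [Finset.sum_congr rfl fun e _ => ENNReal.mul_iSup ..,
      ENNReal.finsetSum_iSup_of_monotone fun e =>
        (monotone_potN (k := k) (ω := ω) (s := s) _).const_mul' _,
      ENNReal.mul_iSup, ENNReal.add_iSup]
    exact iSup_le fun n => le_iSup (fun n => potN k ω s n z) (n + 1)
  · simp only [pot, act]
    rw [Finset.sum_congr rfl fun e _ => ENNReal.mul_iSup ..,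
      ENNReal.finsetSum_iSup_of_monotone fun e =>
        (monotone_potN (k := k) (ω := ω) (s := s) _).const_mul' _,
      ENNReal.mul_iSup, ENNReal.add_iSup]
    exact iSup_le fun n => le_iSup (fun n => potN k ω s n x) (n + 1)

lemma pot_mono {k' : Site d → ℝ} {s' : Site d → ℝ≥0∞} (hk : ∀ x, k x ≤ k' x)
    (hs : ∀ x, s x ≤ s' x) (x : Site d) : pot k ω s x ≤ pot k' ω s' x := by
  refine pot_le (h := pot k' ω s') (fun y => ?_) x
  conv_rhs => rw [pot_eq]
  exact add_le_add (hs y) (mul_le_mul' (ENNReal.ofReal_le_ofReal (hk y)) le_rfl)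

lemma pot_congr {ω' : Env d} (h : ∀ x, 0 < k x → ω x = ω' x) (x : Site d) :
    pot k ω s x = pot k ω' s x := by
  refine iSup_congr fun n => ?_
  suffices H : ∀ n y, potN k ω s n y = potN k ω' s n y from H n x
  intro n
  induction n with
  | zero => intro y; rfl
  | succ n ih =>
    intro y
    simp only [potN, act]
    rcases lt_or_ge 0 (k y) with hy | hy
    · simp [ih, h y hy]
    · simp [ENNReal.ofReal_of_nonpos hy]

lemma pot_add (s' : Site d → ℝ≥0∞) (x : Site d) :
    pot k ω (fun y => s y + s' y) x = pot k ω s x + pot k ω s' x := by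
  have h : ∀ n y, potN k ω (fun y => s y + s' y) n y = potN k ω s n y + potN k ω s' n y := by
    intro n
    induction n with
    | zero => intro y; rfl
    | succ n ih =>
      intro y
      simp only [potN]
      rw [show potN k ω (fun y => s y + s' y) n = fun y => potN k ω s n y + potN k ω s' n y from
        funext ih, act_add]
      abel
  simp only [pot, h]
  exact (ENNReal.iSup_add_iSup_of_monotone (monotone_potN x) (monotone_potN x)).symm

lemma pot_const_mul (c : ℝ≥0∞) (x : Site d) :
    pot k ω (fun y => c * s y) x = c * pot k ω s x := by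
  have h : ∀ n y, potN k ω (fun y => c * s y) n y = c * potN k ω s n y := by
    intro n
    induction n with
    | zero => intro y; rfl
    | succ n ih =>
      intro y
      simp only [potN]
      rw [show potN k ω (fun y => c * s y) n = fun y => c * potN k ω s n y from funext ih,
        act_const_mul, mul_add]
  simp only [pot, h, ENNReal.mul_iSup]

lemma pot_zero (x : Site d) : pot k ω (fun _ => 0) x = 0 :=
  le_antisymm (pot_le (h := fun _ => 0) (fun y => by simp [act]) x) zero_le

lemma pot_finset_sum {ι : Type*} (X : Finset ι) (c : ι → ℝ≥0∞) (f : ι → Site d → ℝ≥0∞)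
    (x : Site d) :
    pot k ω (fun y => ∑ i ∈ X, c i * f i y) x = ∑ i ∈ X, c i * pot k ω (f i) x := by
  classical
  induction X using Finset.induction_on with
  | empty => simpa using pot_zero x
  | insert i X hi ih => simp only [Finset.sum_insert hi, pot_add, pot_const_mul, ih]

lemma measurable_pot (k : Site d → ℝ) (s : Site d → ℝ≥0∞) (x : Site d) :
    Measurable fun ω : Env d => pot k ω s x := by
  refine Measurable.iSup fun n => ?_
  suffices H : ∀ n y, Measurable fun ω : Env d => potN k ω s n y from H n x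
  intro n
  induction n with
  | zero => intro y; exact measurable_const
  | succ n ih =>
    intro y
    refine measurable_const.add (Measurable.mul measurable_const ?_)
    exact Finset.measurable_sum _ fun e _ => (ENNReal.measurable_ofReal.comp
      ((measurable_pi_apply e).comp (measurable_pi_apply y))).mul (ih _)

open scoped Classical in
/-- The indicator of one site. -/
noncomputable def dot (x : Site d) (y : Site d) : ℝ≥0∞ := if y = x then 1 else 0

/-- The expected number of visits to `x` from `z`. -/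
noncomputable def green (k : Site d → ℝ) (ω : Env d) (z x : Site d) : ℝ≥0∞ := pot k ω (dot x) z

lemma sum_mul_green_le (X : Finset (Site d)) (c : Site d → ℝ≥0∞) (z : Site d) :
    ∑ x ∈ X, c x * green k ω z x ≤ pot k ω c z := by
  classical
  rw [show ∑ x ∈ X, c x * green k ω z x = pot k ω (fun y => ∑ x ∈ X, c x * dot x y) z from
    (pot_finset_sum X c (fun x => dot x) z).symm]
  refine pot_mono (fun _ => le_rfl) (fun y => ?_) z
  simp only [dot, mul_ite, mul_one, mul_zero]
  rw [Finset.sum_ite_eq X y c]
  split_ifs <;> simp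

lemma sum_rows_eq_one (hω : Good ω) (x : Site d) : ∑ e, ENNReal.ofReal (ω x e) = 1 := by
  rw [← ENNReal.ofReal_sum_of_nonneg fun e _ => ((hω x).1 e).le, (hω x).2, ENNReal.ofReal_one]

lemma act_le (hω : Good ω) {h : Site d → ℝ≥0∞} {c : ℝ≥0∞} (hh : ∀ y, h y ≤ c) (x : Site d) :
    act k ω h x ≤ ENNReal.ofReal (k x) * c := by
  refine mul_le_mul' le_rfl ((Finset.sum_le_sum fun e _ => mul_le_mul' le_rfl (hh _)).trans ?_)
  rw [← Finset.sum_mul, sum_rows_eq_one hω, one_mul]

lemma toReal_act (hω : Good ω) (hk0 : ∀ x, 0 ≤ k x) {h : Site d → ℝ≥0∞} (x : Site d)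
    (hh : ∀ e, h (x + move e) ≠ ⊤) :
    (act k ω h x).toReal = k x * ∑ e, ω x e * (h (x + move e)).toReal := by
  rw [act, ENNReal.toReal_mul, ENNReal.toReal_ofReal (hk0 x),
    ENNReal.toReal_sum fun e _ => ENNReal.mul_ne_top ENNReal.ofReal_ne_top (hh e)]
  congr 1
  refine Finset.sum_congr rfl fun e _ => ?_
  rw [ENNReal.toReal_mul, ENNReal.toReal_ofReal ((hω x).1 e).le]

/-- A potential is at most one when its source and the survival do not exceed one together. -/
lemma pot_le_one (hω : Good ω) (hs : ∀ x, s x + ENNReal.ofReal (k x) ≤ 1) (x : Site d) :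
    pot k ω s x ≤ 1 :=
  pot_le (h := fun _ => 1) (fun y => (add_le_add le_rfl
    ((act_le hω (fun _ => le_rfl) y).trans_eq (mul_one _))).trans (hs y)) x

/-- The killing bounds the occupation. -/
lemma sum_kill_green_le (hω : Good ω) (hk0 : ∀ x, 0 ≤ k x) (hk1 : ∀ x, k x ≤ 1)
    (X : Finset (Site d)) (z : Site d) :
    ∑ x ∈ X, ENNReal.ofReal (1 - k x) * green k ω z x ≤ 1 := by
  refine (sum_mul_green_le X (fun x => ENNReal.ofReal (1 - k x)) z).trans (pot_le_one hω (fun x => ?_) z)
  rw [← ENNReal.ofReal_add (by linarith [hk1 x]) (hk0 x), sub_add_cancel, ENNReal.ofReal_one]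

lemma green_le_inv (hω : Good ω) (hk0 : ∀ x, 0 ≤ k x) (hk1 : ∀ x, k x ≤ 1) (z x : Site d) :
    green k ω z x ≤ (ENNReal.ofReal (1 - k x))⁻¹ := by
  have h := sum_kill_green_le hω hk0 hk1 {x} z
  rw [Finset.sum_singleton] at h
  rw [ENNReal.le_inv_iff_mul_le, mul_comm]
  exact h

/-- The walk hits `x` at most as often as it does from `x`. -/
lemma green_le_self (hω : Good ω) (hk1 : ∀ x, k x ≤ 1) (z x : Site d) :
    green k ω z x ≤ green k ω x x := by
  classical
  refine (pot_le (h := fun y => min (green k ω y x) (green k ω x x)) (fun y => ?_) z).trans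
    (min_le_right _ _)
  refine le_min ?_ ?_
  · rw [show green k ω y x = dot x y + act k ω (fun z => green k ω z x) y from pot_eq y]
    exact add_le_add le_rfl (act_mono (fun w => min_le_left _ _) y)
  · by_cases hy : y = x
    · subst hy
      conv_rhs => rw [show green k ω y y = dot y y + act k ω (fun z => green k ω z y) y from pot_eq y]
      exact add_le_add le_rfl (act_mono (fun w => min_le_left _ _) y)
    · rw [dot, if_neg hy, zero_add]
      refine (act_le hω (fun w => min_le_right _ _) y).trans ?_
      exact (mul_le_mul' (ENNReal.ofReal_le_one.mpr (hk1 y)) le_rfl).trans_eq (one_mul _)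

section top

variable {T : Set (Site d)}

open scoped Classical in
/-- The source of the chance to reach `T`. -/
noncomputable def ind (T : Set (Site d)) (x : Site d) : ℝ≥0∞ := if x ∈ T then 1 else 0

/-- The quenched chance to reach `T` before dying. -/
noncomputable def succ (k : Site d → ℝ) (ω : Env d) (T : Set (Site d)) (x : Site d) : ℝ≥0∞ :=
  pot k ω (ind T) x

lemma ind_add_le (hk1 : ∀ x, k x ≤ 1) (hT : ∀ x ∈ T, k x ≤ 0) (x : Site d) :
    ind T x + ENNReal.ofReal (k x) ≤ 1 := by
  unfold ind
  split_ifs with h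
  · simp [ENNReal.ofReal_of_nonpos (hT x h)]
  · simpa using hk1 x

lemma succ_le_one (hω : Good ω) (hk1 : ∀ x, k x ≤ 1) (hT : ∀ x ∈ T, k x ≤ 0) (x : Site d) :
    succ k ω T x ≤ 1 :=
  pot_le_one hω (ind_add_le hk1 hT) x

lemma succ_ne_top (hω : Good ω) (hk1 : ∀ x, k x ≤ 1) (hT : ∀ x ∈ T, k x ≤ 0) (x : Site d) :
    succ k ω T x ≠ ⊤ :=
  ne_top_of_le_ne_top ENNReal.one_ne_top (succ_le_one hω hk1 hT x)

open scoped Classical in
/-- The survival of the walk which also dies on `U`. -/
noncomputable def cut (U : Finset (Site d)) (k : Site d → ℝ) (x : Site d) : ℝ :=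
  if x ∈ U then 0 else k x

/-- Reaching `T` needs to avoid `U` or to enter it, both seen without the rows in `U`. -/
lemma succ_le_cut_cut (hω : Good ω) (hk0 : ∀ x, 0 ≤ k x) (hk1 : ∀ x, k x ≤ 1)
    (hT : ∀ x ∈ T, k x ≤ 0) (U : Finset (Site d)) (z : Site d) :
    succ k ω T z ≤ succ (cut U k) ω T z + ∑ x ∈ U, green (cut U k) ω z x := by
  classical
  have hcut : ∀ y, cut U k y ≤ k y := fun y => by unfold cut; split_ifs <;> simp [hk0 y]
  set s' : Site d → ℝ≥0∞ := fun y => ind T y + ∑ x ∈ U, (1 : ℝ≥0∞) * dot x y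
  have key : ∀ y, succ k ω T y ≤ min (pot (cut U k) ω s' y) 1 := by
    refine fun y => pot_le (h := fun y => min (pot (cut U k) ω s' y) 1) (fun y => le_min ?_ ?_) y
    · by_cases hy : y ∈ U
      · refine ((add_le_add le_rfl (act_le hω (fun w => min_le_right _ _) y)).trans_eq
          (by rw [mul_one])).trans ((ind_add_le hk1 hT y).trans (le_trans ?_ (le_pot y)))
        refine le_add_left (le_of_eq ?_)
        simp [dot, Finset.sum_ite_eq, hy]
      · rw [pot_eq y]
        refine add_le_add le_self_add ?_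
        have e : cut U k y = k y := if_neg hy
        simp only [act, e]
        exact mul_le_mul' le_rfl (Finset.sum_le_sum fun e _ => mul_le_mul' le_rfl (min_le_left _ _))
    · exact ((add_le_add le_rfl (act_le hω (fun w => min_le_right _ _) y)).trans_eq
        (by rw [mul_one])).trans (ind_add_le hk1 hT y)
  refine ((key z).trans (min_le_left _ _)).trans ?_
  simp only [s']
  rw [pot_add, pot_finset_sum]
  simp only [one_mul]
  exact le_rfl

/-- Reaching `T` needs to avoid `U` or to enter it. -/
lemma succ_le_cut (hω : Good ω) (hk0 : ∀ x, 0 ≤ k x) (hk1 : ∀ x, k x ≤ 1)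
    (hT : ∀ x ∈ T, k x ≤ 0) (U : Finset (Site d)) (z : Site d) :
    succ k ω T z ≤ succ (cut U k) ω T z + ∑ x ∈ U, green k ω z x :=
  (succ_le_cut_cut hω hk0 hk1 hT U z).trans (add_le_add le_rfl (Finset.sum_le_sum fun x _ =>
    pot_mono (fun y => by unfold cut; split_ifs <;> simp [hk0 y]) (fun _ => le_rfl) z))

lemma cut_succ_le (hk0 : ∀ x, 0 ≤ k x) (U : Finset (Site d)) (z : Site d) :
    succ (cut U k) ω T z ≤ succ k ω T z :=
  pot_mono (fun y => by unfold cut; split_ifs <;> simp [hk0 y]) (fun _ => le_rfl) z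

lemma cut_succ_congr {ω' : Env d} (U : Finset (Site d)) (h : ∀ x, x ∉ U → ω x = ω' x) (z : Site d) :
    succ (cut U k) ω T z = succ (cut U k) ω' T z :=
  pot_congr (fun x hx => h x fun hxU => by simp [cut, hxU] at hx) z

/-- The mean of the chances after one step. -/
noncomputable def mean (k : Site d → ℝ) (ω : Env d) (T : Set (Site d)) (x : Site d) : ℝ :=
  ∑ e, ω x e * (succ k ω T (x + move e)).toReal

/-- The variance of the chances after one step. -/
noncomputable def spreadAt (k : Site d → ℝ) (ω : Env d) (T : Set (Site d)) (x : Site d) : ℝ :=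
  ∑ e, ω x e * ((succ k ω T (x + move e)).toReal - mean k ω T x) ^ 2

lemma spreadAt_nonneg (hω : Good ω) (x : Site d) : 0 ≤ spreadAt k ω T x :=
  Finset.sum_nonneg fun e _ => mul_nonneg ((hω x).1 e).le (sq_nonneg _)

/-- The quadratic variation of the chances is at most one. -/
lemma sum_spread_green_le (hω : Good ω) (hk0 : ∀ x, 0 ≤ k x) (hk1 : ∀ x, k x ≤ 1)
    (hT : ∀ x ∈ T, k x ≤ 0) (X : Finset (Site d)) (z : Site d) :
    ∑ x ∈ X, ENNReal.ofReal (k x * spreadAt k ω T x) * green k ω z x ≤ 1 := by
  set f : Site d → ℝ := fun x => (succ k ω T x).toReal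
  have hf0 : ∀ x, 0 ≤ f x := fun x => ENNReal.toReal_nonneg
  have hf1 : ∀ x, f x ≤ 1 := fun x =>
    ENNReal.toReal_le_of_le_ofReal zero_le_one (by simpa using succ_le_one hω hk1 hT x)
  refine (sum_mul_green_le X (fun x => ENNReal.ofReal (k x * spreadAt k ω T x)) z).trans ?_
  refine le_trans (pot_le (h := fun y => ENNReal.ofReal (1 - f y ^ 2)) (fun y => ?_) z) ?_
  · have hnn : ∀ w, 0 ≤ 1 - f w ^ 2 := fun w => by nlinarith [hf0 w, hf1 w]
    have hact : act k ω (fun w => ENNReal.ofReal (1 - f w ^ 2)) y
        = ENNReal.ofReal (k y * ∑ e, ω y e * (1 - f (y + move e) ^ 2)) := by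
      rw [act, ENNReal.ofReal_mul (hk0 y), ENNReal.ofReal_sum_of_nonneg fun e _ =>
        mul_nonneg ((hω y).1 e).le (hnn _)]
      congr 1
      exact Finset.sum_congr rfl fun e _ => (ENNReal.ofReal_mul ((hω y).1 e).le).symm
    rw [hact, ← ENNReal.ofReal_add (mul_nonneg (hk0 y) (spreadAt_nonneg hω y))
      (mul_nonneg (hk0 y) (Finset.sum_nonneg fun e _ => mul_nonneg ((hω y).1 e).le (hnn _)))]
    refine ENNReal.ofReal_le_ofReal ?_
    have hsum : spreadAt k ω T y + ∑ e, ω y e * (1 - f (y + move e) ^ 2) = 1 - mean k ω T y ^ 2 := by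
      have e1 : spreadAt k ω T y = ∑ e, (ω y e * f (y + move e) ^ 2
          - 2 * mean k ω T y * (ω y e * f (y + move e)) + mean k ω T y ^ 2 * ω y e) :=
        Finset.sum_congr rfl fun e _ => by simp only [f]; ring
      rw [e1, Finset.sum_add_distrib, Finset.sum_sub_distrib, ← Finset.mul_sum, ← Finset.mul_sum,
        (hω y).2, show ∑ e, ω y e * f (y + move e) = mean k ω T y from rfl]
      simp only [mul_sub, mul_one, Finset.sum_sub_distrib, (hω y).2]
      ring
    rw [← mul_add, hsum]
    rcases eq_or_lt_of_le (hk0 y) with hy | hy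
    · rw [← hy, zero_mul]; exact hnn y
    · have hyT : y ∉ T := fun h => absurd (hT y h) (not_le.mpr hy)
      have hfy : f y = k y * mean k ω T y := by
        simp only [f, mean]
        rw [show succ k ω T y = ind T y + act k ω (succ k ω T) y from pot_eq y, ind, if_neg hyT,
          zero_add, toReal_act hω hk0 y fun e => succ_ne_top hω hk1 hT _]
      rw [hfy]
      nlinarith [hk1 y, mul_nonneg (sub_nonneg.mpr (hk1 y))
        (mul_nonneg (hk0 y) (sq_nonneg (mean k ω T y)))]
  · exact ENNReal.ofReal_le_one.mpr (by nlinarith [hf0 z])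

end top

end Vale.Agent.P147.Velocity.Four
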