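import Vale.Agent.P147.Resample
import Vale.Agent.P147.Decouple

/-!
P147: functions of the environment with finitely many rows averaged out.
-/

open MeasureTheory Filter
open scoped ENNReal

namespace Vale.Agent.P147.Velocity.Four

open Vale.Agent.P147.Resample

variable {d : ℕ} (μ : Measure (Step d → ℝ)) [IsProbabilityMeasure μ]

lemma lintegral_piecewise (X : Finset (Site d)) {H : Env d → ℝ≥0∞} (hH : Measurable H) :
    ∫⁻ ω, H ω ∂iidLaw μ = ∫⁻ θ, ∫⁻ η, H (X.piecewise η θ) ∂iidLaw μ ∂iidLaw μ := by
  rw [← (measurePreserving_piecewise μ X).lintegral_comp hH]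
  exact lintegral_prod_symm' (fun p : Env d × Env d => H (X.piecewise p.1 p.2))
    (hH.comp (measurable_piecewise X))

/-- The function with the rows in `U` averaged out. -/
noncomputable def fresh (U : Finset (Site d)) (G : Env d → ℝ≥0∞) (ω : Env d) : ℝ≥0∞ :=
  ∫⁻ η, G (U.piecewise η ω) ∂iidLaw μ

lemma measurable_fresh (U : Finset (Site d)) {G : Env d → ℝ≥0∞} (hG : Measurable G) :
    Measurable (fresh μ U G) :=
  (hG.comp (measurable_piecewise U)).lintegral_prod_left'

end Vale.Agent.P147.Velocity.Four
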